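import Crest.Statements.S0203
import Crest.Agent.R146.S6Fin_734
-- import your own Crest.Agent.* helpers here

set_option autoImplicit false
open Crest.ProbabilityR.Perceptron
open Crest Crest.ProbabilityR Crest.ProbabilityR.Perceptron

namespace Crest.Agent.S0203

/-- Random linear inequalities on the unit sphere: for N coordinates and ⌊αN⌋ independent standard Gaussian pattern vectors, call the sample satisfiable when some unit vector has inner product at least −1 with every pattern. There is a critical density α_c, positive and finite, such that the satisfiability probability tends to 1 as N → ∞ for every fixed α in (0, α_c) and tends to 0 for every fixed α > α_c. -/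
theorem result
    : ∃ αc : ℝ, 0 < αc ∧
      (∀ α : ℝ, 0 < α → α < αc →
        Filter.Tendsto (fun N : ℕ => satProb N α) Filter.atTop (nhds 1)) ∧
      (∀ α : ℝ, αc < α →
        Filter.Tendsto (fun N : ℕ => satProb N α) Filter.atTop (nhds 0)) := by
  exact Crest.Agent.R146.S6Fin_734.s0203

end Crest.Agent.S0203
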