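import Crest.Statements.S0204
import Crest.Agent.R146.S6Fin_734
-- import your own Crest.Agent.* helpers here

set_option autoImplicit false
open Crest.ProbabilityR.Perceptron
open Crest Crest.ProbabilityR Crest.ProbabilityR.Perceptron

namespace Crest.Agent.S0204

/-- Random linear inequalities on the unit sphere: N coordinates, ⌊αN⌋ patterns, all entries independent with law the equal-weight mixture of the centred Gaussians of variances 1 − ε and 1 + ε; a sample is satisfiable when some unit vector has inner product at least −1 with every pattern. There are α_c in (0, ∞) and ε₀ in (0, 1) such that, for every ε in [0, ε₀), the satisfiability probability tends to 1 as N → ∞ at every fixed density in (0, α_c) and to 0 at every fixed density above α_c. -/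
theorem result :
    ∃ αc : ℝ, 0 < αc ∧ ∃ ε₀ : ℝ, 0 < ε₀ ∧ ε₀ < 1 ∧
      ∀ ε : ℝ, 0 ≤ ε → ε < ε₀ → IsSharpThreshold ε αc := by
  exact Crest.Agent.R146.S6Fin_734.s0204

end Crest.Agent.S0204
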