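import Crest.Statements.S0205
import Crest.Agent.R146.S0205Top_131
import Crest.Agent.R146.NumThm_131
-- import your own Crest.Agent.* helpers here

set_option autoImplicit false
open Crest.ProbabilityR.Perceptron
open Crest Crest.ProbabilityR Crest.ProbabilityR.Perceptron

namespace Crest.Agent.S0205

/-- Let α_c > 0 be a sharp satisfiability threshold for Gaussian patterns at margin −1. For some ε₀ in (0,1) and maps G, F, for all ε in [0, ε₀): the successive limits N → ∞, β → ∞, α ↓ α_c of the mean gap fraction at levels (δ, u], 0 < δ < u, exist and tend to G(u) as δ ↓ 0; those of the mean force fraction at level s > 0 exist and equal F(s). F is the distribution function of a mean-one law on (0, ∞); at 0⁺, log G(u)/log u → 1 − γ and log F(s)/log s → 1 + θ, γ = 1/(2+θ), γ, θ as below. -/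
theorem result
    (αc : ℝ) (hαc : 0 < αc)
    (hlow : ∀ α : ℝ, 0 < α → α < αc →
      Filter.Tendsto (fun N : ℕ => satProb N α) Filter.atTop (nhds 1))
    (hhigh : ∀ α : ℝ, αc < α →
      Filter.Tendsto (fun N : ℕ => satProb N α) Filter.atTop (nhds 0)) :
    ∃ ε₀ : ℝ, 0 < ε₀ ∧ ε₀ < 1 ∧ ∃ G F : ℝ → ℝ,
      (∀ ε : ℝ, 0 ≤ ε → ε < ε₀ →
        (∀ u : ℝ, 0 < u → ∃ g : ℝ → ℝ,
          (∀ δ : ℝ, 0 < δ → δ < u →
            HasOrderedLimit (fun N β α => gapMean N β α ε δ u) αc (g δ)) ∧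
          Filter.Tendsto g (nhdsWithin 0 (Set.Ioi 0)) (nhds (G u))) ∧
        (∀ s : ℝ, 0 < s → HasOrderedLimit (fun N β α => forceMean N β α ε s) αc (F s))) ∧
      (∃ P : MeasureTheory.Measure ℝ, MeasureTheory.IsProbabilityMeasure P ∧
        P (Set.Iic 0) = 0 ∧ ∫ x, x ∂P = 1 ∧
        ∀ s : ℝ, 0 < s → F s = (P (Set.Iic s)).toReal) ∧
      ∃ γ θ : ℝ, γ = 1 / (2 + θ) ∧ 0.4126930 < γ ∧ γ < 0.4126934 ∧
        0.4231063 < θ ∧ θ < 0.4231088 ∧
        Filter.Tendsto (fun u : ℝ => Real.log (G u) / Real.log u)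
          (nhdsWithin 0 (Set.Ioi 0)) (nhds (1 - γ)) ∧
        Filter.Tendsto (fun s : ℝ => Real.log (F s) / Real.log s)
          (nhdsWithin 0 (Set.Ioi 0)) (nhds (1 + θ)) :=
  Crest.Agent.R146.S0205Top_131.s0205_num Crest.Agent.R146.Bsw_649.bsw Crest.Agent.R146.NumThm_131.numref αc hαc hlow hhigh


end Crest.Agent.S0205
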