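import Crest.Statements.S0206
import Crest.Agent.R146.S0206F_988

set_option autoImplicit false
open Crest.ProbabilityR.Perceptron
open Crest Crest.ProbabilityR Crest.ProbabilityR.Perceptron

namespace Crest.Agent.S0206

/-- Spherical perceptron: ⌊αN⌋ Gaussian patterns, α, β > 0, bounded continuous φ; p_N = N⁻¹ log of the uniform average over unit vectors y of exp(β Σ_a φ(g_a · y)). For a Brownian motion B with its natural filtration, let V(m) = sup over progressive controls v of finite cost of E[βφ(B_1 + ∫_0^1 m v)] − ½E∫_0^1 m v², and S(m) = ½∫_0^1 (1/∫_t^1 m − 1/(1−t)). Then the infimum of αV(m) + S(m) over non-decreasing m : [0,1] → [0,1] is a real number P, E p_N → P, and p_N → P in probability. -/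
theorem result
    (Ω : Type) [MeasurableSpace Ω] (P : MeasureTheory.Measure Ω) [MeasureTheory.IsProbabilityMeasure P]
    (B : NNReal → Ω → ℝ) (hBm : ∀ t, Measurable (B t)) (hB : ProbabilityTheory.IsBrownianReal B P)
    (α β : ℝ) (hα : 0 < α) (hβ : 0 < β)
    (φ : ℝ → ℝ) (hφc : Continuous φ) (hφb : ∃ K : ℝ, ∀ x, abs (φ x) ≤ K) :
    ∃ p : ℝ,
      ⨅ m : OverlapProfile, variationalFunctional P B hBm α β φ m = (p : EReal) ∧
      Filter.Tendsto (fun N : ℕ => expectedPressure N α β φ) Filter.atTop (nhds p) ∧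
      ∀ ε : ℝ, 0 < ε →
        Filter.Tendsto (fun N : ℕ => pressureTailProb N α β φ p ε) Filter.atTop (nhds 0) :=
  Crest.Agent.R146.S0206F_988.s0206 Ω P B hBm hB α β hα hβ φ hφc hφb

end Crest.Agent.S0206
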