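import Crest.Statements.S0364
-- import your own Crest.Agent.* helpers here
import Crest.Agent.R235.Final_837

set_option autoImplicit false
open scoped Manifold ContDiff
open Crest.GeometryTopology.TwoForm
open Crest Crest.GeometryTopology

namespace Crest.Agent.S0364

/-- Let M be a compact connected Hausdorff smooth four-manifold and α a positive triple of smooth closed two-forms (every non-trivial combination has nowhere-zero wedge square on frames). Then α deforms through such triples, smoothly in (t, x) and keeping each α_i's class (differences are exterior derivatives of smooth one-forms), to a triple whose pointwise wedge-product matrix is a fixed positive-definite matrix times a volume factor. -/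
theorem result
    (M : Type*) [TopologicalSpace M] [T2Space M] [CompactSpace M] [ConnectedSpace M]
    [ChartedSpace (EuclideanSpace ℝ (Fin 4)) M] [IsManifold (𝓡 4) ∞ M]
    (α : Fin 3 → Π x : M, TangentSpace (𝓡 4) x →L[ℝ] TangentSpace (𝓡 4) x →L[ℝ] ℝ)
    (hs : ∀ i, IsSmoothTwoForm (𝓡 4) M (α i)) (hc : ∀ i, IsClosedTwoForm (𝓡 4) M (α i))
    (hp : IsPositiveTriple (𝓡 4) M α) :
    ∃ Ω : ℝ → Fin 3 → Π x : M, TangentSpace (𝓡 4) x →L[ℝ] TangentSpace (𝓡 4) x →L[ℝ] ℝ,
      Ω 0 = α ∧
      (∀ t i, IsSmoothTwoForm (𝓡 4) M (Ω t i) ∧ IsClosedTwoForm (𝓡 4) M (Ω t i) ∧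
        IsExactDiff (𝓡 4) M (Ω t i) (α i)) ∧
      (∀ t, IsPositiveTriple (𝓡 4) M (Ω t)) ∧
      (∀ i, ∀ Y Z : Π x : M, TangentSpace (𝓡 4) x,
        IsSmoothVectorField (𝓡 4) M Y → IsSmoothVectorField (𝓡 4) M Z →
          ContMDiff (𝓘(ℝ, ℝ).prod (𝓡 4)) 𝓘(ℝ, ℝ) ∞
            (fun p : ℝ × M => Ω p.1 i p.2 (Y p.2) (Z p.2))) ∧
      ∃ G : Matrix (Fin 3) (Fin 3) ℝ, G.PosDef ∧
        ∀ (x : M) (v : Fin 4 → TangentSpace (𝓡 4) x), ∃ s : ℝ,
          ∀ i j, wedgeEval (Ω 1 i x) (Ω 1 j x) v = s * G i j := by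
  exact Crest.Agent.R235.Glue_856.result_of_main Crest.Agent.R235.Final_837.main M α hs hc hp

end Crest.Agent.S0364
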