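import Crest.Statements.S0406
import Crest.Agent.R267.HubTop5_808

set_option autoImplicit false
open Topology Filter
open Crest Crest.AlgGeometry

namespace Crest.Agent.S0406

/-- There are two functions on complex 4-space, analytic at the origin and vanishing there, each with reduced germ (not equal near the origin to h ^ 2 * u with h, u analytic at the origin and h 0 = 0) and an isolated critical point at the origin, whose zero sets correspond under a homeomorphism between open neighbourhoods of the origin fixing it, and whose orders of vanishing at the origin (least order of a nonzero derivative there) are exactly 4 and 5 respectively. -/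
theorem result :
    ∃ (f g : (Fin 4 → ℂ) → ℂ),
      AnalyticAt ℂ f 0 ∧ AnalyticAt ℂ g 0 ∧ f 0 = 0 ∧ g 0 = 0 ∧
      (∀ h u : (Fin 4 → ℂ) → ℂ, AnalyticAt ℂ h 0 → AnalyticAt ℂ u 0 → h 0 = 0 →
        ¬ (f =ᶠ[𝓝 0] fun x => h x ^ 2 * u x)) ∧
      (∀ h u : (Fin 4 → ℂ) → ℂ, AnalyticAt ℂ h 0 → AnalyticAt ℂ u 0 → h 0 = 0 →
        ¬ (g =ᶠ[𝓝 0] fun x => h x ^ 2 * u x)) ∧
      fderiv ℂ f 0 = 0 ∧ (∀ᶠ x in 𝓝[≠] (0 : Fin 4 → ℂ), fderiv ℂ f x ≠ 0) ∧
      fderiv ℂ g 0 = 0 ∧ (∀ᶠ x in 𝓝[≠] (0 : Fin 4 → ℂ), fderiv ℂ g x ≠ 0) ∧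
      (∃ φ : OpenPartialHomeomorph (Fin 4 → ℂ) (Fin 4 → ℂ),
        (0 : Fin 4 → ℂ) ∈ φ.source ∧ φ 0 = 0 ∧ ∀ x ∈ φ.source, (f x = 0 ↔ g (φ x) = 0)) ∧
      (∀ j < 4, iteratedFDeriv ℂ j f 0 = 0) ∧ iteratedFDeriv ℂ 4 f 0 ≠ 0 ∧
      (∀ j < 5, iteratedFDeriv ℂ j g 0 = 0) ∧ iteratedFDeriv ℂ 5 g 0 ≠ 0 := by
  exact (Crest.Agent.R267.HubTop5_808.lit : Crest.Agent.R267.NdZ_484.Lit)

end Crest.Agent.S0406
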