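import Crest.Statements.S0434
import Crest.Agent.R289.Asm5_331

set_option autoImplicit false
open Crest Crest.LogicCS

namespace Crest.Agent.S0434

/-- For some rationals 0 < ε < 1/10, 0 < δ < 1, naturals A ≥ 1, b, a polynomial p and polynomial-time maps R (bit strings), D (pairs): every well-formed generalized circuit has an acceptable assignment (values in [0,1], code length ≤ p(M), at most a δ-fraction of gates not ε-satisfied); R maps each well-formed End-of-Line instance, code length N, to a well-formed generalized circuit, code length M ≤ A·N·⌈log₂(N+2)⌉^b; D maps the instance with any acceptable assignment of the circuit to a solution. -/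
theorem result :
    ∃ ε δ : ℚ, 0 < ε ∧ ε < 1 / 10 ∧ 0 < δ ∧ δ < 1 ∧
    ∃ A b : ℕ, 0 < A ∧ ∃ p : Polynomial ℕ,
    ∃ (R : List Bool → List Bool) (D : List Bool × List Bool → List Bool),
      Crest.Complexity.PolyTime R ∧
      Crest.Complexity.PolyTimeComputable Crest.Complexity.pairEnc
        (Computability.encodingList Bool).encode D ∧
      (∀ G : Crest.PPADPCP.GCircuit, G.WF → ∃ x : List ℚ, Crest.PPADPCP.Acceptable ε δ p G x) ∧
      ∀ I : Crest.PPADPCP.EOL, I.WF → ∃ G : Crest.PPADPCP.GCircuit, G.WF ∧ R I.encode = G.encode ∧
        G.encode.length ≤ A * I.encode.length * (Nat.clog 2 (I.encode.length + 2)) ^ b ∧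
        ∀ x : List ℚ, Crest.PPADPCP.Acceptable ε δ p G x →
          ∃ v : Fin I.n → Bool, I.IsSolution v ∧
            D (I.encode, Crest.PPADPCP.assignmentBits x) = Crest.PPADPCP.solutionBits v :=
  Crest.Agent.R289.Asm331.S0434_final

end Crest.Agent.S0434
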